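import Crest.Agent.X212.Nck9.Scal
import Crest.Agent.X212.Rtw9.Lf
import Crest.Agent.X212.Ray9.Main
import Crest.Agent.X212.Gsl9.Main
import Crest.Agent.X212.Gsl9.Frq
import Crest.Agent.X212.Es42.Lvl
import Crest.Agent.X212.Sep15.SwB

/-!
# Row 212, EN-NECK (helper9): control of the spinor on a neck
-/

set_option autoImplicit false
set_option linter.unusedSectionVars false
noncomputable section
open scoped Manifold ContDiff Topology InnerProductSpace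
open MeasureTheory Filter Set

namespace Crest.Agent.X212.Nck9
open An Cyf70 End23
open Sw (En3)
open Sw.En3 (sl fz nm gn en)
open Nd18 (Jv ct)

section time
variable {p q : Option ℝ} {d d' t : ℝ}

theorem mem_Jd : t ∈ Jd p q d ↔ (∀ a ∈ p, a + d < t) ∧ ∀ b ∈ q, t < b - d := by
  cases p <;> cases q <;> simp [Jv]

theorem Jd_mono (h : d ≤ d') : Jd p q d' ⊆ Jd p q d := fun _ k => mem_Jd.2
  ⟨fun a m => by linarith [(mem_Jd.1 k).1 a m], fun a m => by linarith [(mem_Jd.1 k).2 a m]⟩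

theorem Jd_sub (h : t ∈ Jd p q d) : Ioo (t - d) (t + d) ⊆ Jv p q := fun _ k =>
  ⟨fun a m => by linarith [(mem_Jd.1 h).1 a m, k.1], fun a m => by linarith [(mem_Jd.1 h).2 a m, k.2]⟩

theorem Jd_Jv (h : 0 < d) : Jd p q d ⊆ Jv p q := fun _ k => Jd_sub k ⟨by linarith, by linarith⟩

theorem oc_Jv : (Jv p q).OrdConnected :=
  ⟨fun _ h _ h' _ k => ⟨fun a m => (h.1 a m).trans_le k.1, fun a m => k.2.trans_lt (h'.2 a m)⟩⟩

theorem ct_Jd (h : t ∈ Jd p q 2) : ct p q 1 t = 1 := Nd18.ct_one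
  ⟨fun a m => by linarith [(mem_Jd.1 h).1 a m], fun a m => by linarith [(mem_Jd.1 h).2 a m]⟩

variable (p q) in
/-- the times of depth at most `2` -/
def Bd : Set ℝ := Icc (p.getD 0) (p.getD 0 + 2) ∪ Icc (q.getD 0 - 2) (q.getD 0)

theorem ms_Bd : MeasurableSet (Bd p q) := measurableSet_Icc.union measurableSet_Icc

theorem vol_Bd : volume (Bd p q) ≤ ENNReal.ofReal 4 := (measure_union_le _ _).trans_eq (by
  rw [Real.volume_Icc, Real.volume_Icc, ← ENNReal.ofReal_add (by linarith) (by linarith)]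
  congr 1; ring)

theorem of_Bd (h : t ∈ Jv p q) (k : t ∉ Bd p q) : t ∈ Jd p q 2 := mem_Jd.2
  ⟨fun a m => not_le.1 fun j => k (.inl (by rw [show p = some a from m]; exact ⟨(h.1 a m).le, j⟩)),
    fun a m => not_le.1 fun j => k (.inr (by rw [show q = some a from m]; exact ⟨j, (h.2 a m).le⟩))⟩

end time

theorem frq2 (Sp : Set ℝ) (hS : ∀ R, (Sp ∩ Icc (-R) R).Finite) (Λ C : ℝ) : ∃ Λ' ≥ Λ, ∃ M ≥ (1 : ℝ),
    ∃ ε > 0, ∀ (a b : ℝ) (l N x β r : ℝ → ℝ), Sc (Icc a b) Sp C ε l N x β r →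
    IntegrableOn r (Icc a b) → ∫ t in Icc a b, r t ≤ C → ContinuousOn β (Icc a b) →
    (N a ≤ Λ' → ∀ s t, a ≤ s → s ≤ t → t ≤ b →
      N t ≤ M ∧ (∫ τ in s..t, (2 * β τ - M)) - M ≤ l t - l s) ∧
    (-Λ' ≤ N b → ∀ s t, a ≤ s → s ≤ t → t ≤ b →
      -M ≤ N s ∧ l t - l s ≤ (∫ τ in s..t, (2 * β τ + M)) + M) ∧
    ((∀ τ ∈ Icc a b, Λ' ≤ N τ) → ∀ s t, a ≤ s → s ≤ t → t ≤ b →
      l t - l s ≤ (∫ τ in s..t, 2 * β τ) + M) := by
  obtain ⟨M, M1, ε, ε0, h⟩ := Gsl9.frq Sp hS (max Λ ((C ^ 2 / 4 + 1) ^ 2 / 2 + 3)) C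
  have C0 := abs_nonneg C
  refine ⟨max Λ ((C ^ 2 / 4 + 1) ^ 2 / 2 + 3), le_max_left _ _, M + (2 * |C| + 4), by linarith,
    min ε 1, by positivity, fun a b l N x β r k hr hC hβ => ?_⟩
  have i : ∀ {s t}, a ≤ s → s ≤ t → t ≤ b → ∀ y y' : ℝ, y ≤ y' →
      ∫ τ in s..t, (2 * β τ + y) ≤ ∫ τ in s..t, (2 * β τ + y') := fun hs hst ht y y' j =>
    have i := fun y : ℝ => (((hβ.mono (Icc_subset_Icc hs ht)).const_mul 2).add
      (continuousOn_const (c := y))).intervalIntegrable_of_Icc (μ := volume) hst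
    intervalIntegral.integral_mono_on hst (i y) (i y') fun _ _ => add_le_add_right j _
  obtain ⟨h1, h2⟩ := h a b l N x β r ⟨fun t m => let ⟨l', N', k1, k2, k3, k4⟩ := k.der t m
    ⟨l', N', k1, k2, k3.trans (by gcongr; exact min_le_left _ _), k4⟩, k.x0, k.r0, k.gap⟩ hr hC hβ
  refine ⟨fun j s t hs hst ht => (h1 j s t hs hst ht).imp (fun _ => by linarith) fun j => ?_,
    fun j s t hs hst ht => (h2 j s t hs hst ht).imp (fun _ => by linarith) fun j => ?_,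
    fun j s t hs hst ht => ?_⟩
  · simp only [sub_eq_add_neg] at j ⊢
    linarith [i hs hst ht (-(M + (2 * |C| + 4))) (-M) (by linarith)]
  · linarith [i hs hst ht M (M + (2 * |C| + 4)) (by linarith)]
  choose! l' N' d1 d2 d3 d4 using k.der
  have sub := Icc_subset_Icc hs ht
  have iβ : IntegrableOn (fun τ => 2 * β τ) (Icc s t) :=
    ContinuousOn.integrableOn_Icc ((hβ.mono sub).const_mul 2)
  have ir := (hr.mono_set sub).const_mul 2
  have hd := fun τ (m : τ ∈ Icc s t) =>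
    (d1 τ (sub m)).add ((Real.hasDerivAt_arctan _).comp τ (d2 τ (sub m)))
  have := intervalIntegral.sub_le_integral_of_hasDeriv_right_of_le hst
    (fun τ m => (hd τ m).continuousAt.continuousWithinAt)
    (fun τ m => (hd τ (Ioo_subset_Icc_self m)).hasDerivWithinAt) (iβ.add ir) fun τ m => by
      have m := sub (Ioo_subset_Icc_self m)
      have k1 := (abs_le.1 (d4 τ m)).2
      have k2 := Gsl9.sq_le (C := C) (N := N τ) (k.x0 τ m)
      have k3 := k.r0 τ m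
      have k4 : 1 / (1 + N τ ^ 2) * N' τ ≤
          -(x τ ^ 2 / (2 * (1 + N τ ^ 2))) + 2 * (min ε 1 + r τ) := by
        rw [one_div, inv_mul_le_iff₀ (by positivity), mul_add,
          show (1 + N τ ^ 2) * -(x τ ^ 2 / (2 * (1 + N τ ^ 2))) = -x τ ^ 2 / 2 by field_simp]
        nlinarith [d3 τ m, mul_nonneg (show 0 ≤ min ε 1 + r τ by positivity)
          (show 0 ≤ 2 * (1 + N τ ^ 2) - (1 + |N τ|) by nlinarith [sq_abs (N τ), sq_nonneg (|N τ| - 1)])]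
      have k5 := le_of_max_le_right (j τ m)
      rw [abs_of_nonneg (le_trans (by positivity) k5)] at k2 k1
      simp only [Pi.add_apply]
      linarith [min_le_right ε 1]
  have j := fun (f : ℝ → ℝ) (k : IntegrableOn f (Icc s t)) =>
    (intervalIntegrable_iff_integrableOn_Icc_of_le (f := f) (μ := volume) hst).2 k
  simp only [Pi.add_apply, Function.comp] at this
  rw [intervalIntegral.integral_add (j _ iβ) (j _ ir), intervalIntegral.integral_const_mul 2 r,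
    intervalIntegral.integral_of_le (f := r) hst] at this
  linarith [le_abs_self C, setIntegral_mono_set hr ((ae_restrict_iff' measurableSet_Icc).2
    (.of_forall k.r0)) ((Ioc_subset_Icc_self.trans sub).eventuallyLE),
    Real.arctan_lt_pi_div_two (N s), Real.neg_pi_div_two_lt_arctan (N t), Real.pi_le_four]

variable {κ lam ν : Type} [Fintype κ] [Fintype lam] [Fintype ν] [DecidableEq ν]
  {e : En3 κ lam ν} {u : e.Y.M → ℂ} {p q : Option ℝ} {t C : ℝ} {I : Set ℝ}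

theorem ns_mono {A : e.ZC} {C' η η' : ℝ} (h : NS p q C η A)
    (hC : C ≤ C') (hη : η ≤ η') : NS p q C' η' A :=
  ⟨h.len, h.adm, h.eD, fun w k x m => (h.τ w k x m).trans hη,
    h.en.trans (ENNReal.ofReal_le_ofReal hC), fun s k => (h.ed s k).trans (ENNReal.ofReal_le_ofReal hC)⟩

theorem nm_le {A : e.ZC} (hw : 0 ≤ e.w) (h : Sb A I C) (ht : t ∈ I) :
    e.w * nm (sl A t) ≤ 2 * C ^ 2 * e.D.F.μ.real univ := by
  rw [nm, ← integral_const_mul, mul_comm (2 * C ^ 2), ← smul_eq_mul (e.D.F.μ.real univ),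
    ← integral_const]
  refine integral_mono_of_nonneg (.of_forall fun _ => mul_nonneg hw (sq_nonneg _))
    (Sep15.S.integrable_Y continuous_const) (.of_forall fun y => ?_)
  have := pow_le_pow_left₀ (mul_nonneg (Real.sqrt_nonneg _) (norm_nonneg _)) (h (y, t) ⟨trivial, ht⟩) 2
  rw [mul_pow, Real.sq_sqrt (by positivity)] at this
  simp only [sl]
  linarith

theorem int_gn {A : e.ZC} (he : e.OK) {a b η : ℝ} (h : NS p q C η A) (hs : Icc a b ⊆ Jv p q) :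
    IntegrableOn ((Jd p q 2).indicator fun t => gn (sl A t)) (Icc a b) ∧
      ∫ t in Icc a b, (Jd p q 2).indicator (fun t => gn (sl A t)) t ≤ |C| := by
  have i := ((Dl42.dl e he A _ Nd18.isOpen_Jv h.adm).2.1.continuousOn.mono hs).integrableOn_Icc
    (μ := volume)
  have m : MeasurableSet (Jd p q 2) := Nd18.isOpen_Jv.measurableSet
  refine ⟨i.indicator m, ?_⟩
  rw [setIntegral_indicator m, integral_eq_lintegral_of_nonneg_ae
    (.of_forall fun _ => Sep15.S.gn_nonneg he.cyl.w _) (i.mono_set inter_subset_left).1]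
  exact ENNReal.toReal_le_of_le_ofReal (abs_nonneg C) ((lintegral_mono_set inter_subset_right).trans
    (h.en.trans (ENNReal.ofReal_le_ofReal (le_abs_self C))))

theorem kp_le (he : e.OK) (H : Hd e u) {a₀ σ K₀} (f0 : Fo e a₀) (hσ : End23.Sg σ K₀) {A : e.ZC}
    (hI : IsOpen I) (hA : e.cyl.AdmOn A (univ ×ˢ I)) (ht : t ∈ I)
    (h : ∫ y, ‖e.cyl.fc A (y, t)‖ ^ 2 ∂e.D.F.μ ≤ C) : 0 ≤ Ray9.rk H a₀ σ A t ∧ Ray9.rk H a₀ σ A t ≤
      2 * |C| + 2 * ∫ y, ‖e.cyl.fc (fz (⟨a₀, 0⟩ : e.YC)) (y, 0)‖ ^ 2 ∂e.D.F.μ + K₀ ^ 2 := by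
  obtain ⟨c, h1, -, h2⟩ := Ray9.glob hI hA ht
  have c1 := Ray9.cont_fc he h1 t
  simp only [fun y => Sw88.fc_congr (b := e.cyl) (h2 y).1] at c1
  have i1 := (Sep15.S.integrable_Y (c1.norm.pow 2)).const_mul 2
  have i2 := (Sep15.S.integrable_Y ((Ray9.cont_fc he f0 0).norm.pow 2)).const_mul 2
  refine ⟨add_nonneg (integral_nonneg fun _ => sq_nonneg _) (sq_nonneg _), add_le_add
    ((integral_mono_of_nonneg (.of_forall fun _ => sq_nonneg _) (i1.add i2) (.of_forall fun y => ?_)).trans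
      ((integral_add i1 i2).trans_le ?_)) (sq_le_sq' (neg_le_of_abs_le (hσ.id _)) (le_of_abs_le (hσ.id _)))⟩
  · have := pow_le_pow_left₀ (norm_nonneg _) (norm_sub_le (e.cyl.fc A (y, t))
      (e.cyl.fc (fz (⟨a₀, 0⟩ : e.YC)) (y, 0))) 2
    simp only [Ray9.df, Pi.add_apply, Pi.pow_apply]
    nlinarith [sq_nonneg (‖e.cyl.fc A (y, t)‖ - ‖e.cyl.fc (fz (⟨a₀, 0⟩ : e.YC)) (y, 0)‖)]
  · rw [integral_const_mul, integral_const_mul]
    exact add_le_add (mul_le_mul_of_nonneg_left (h.trans (le_abs_self C)) zero_le_two) le_rfl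

theorem fw_of {A : e.ZC} {ρ Λ M R M' s : ℝ} {g N β : ℝ → ℝ} {B : Set ℝ}
    (h : Dat I ρ Λ M R g (fun t => nm (sl A t)) N β) (hM : 0 ≤ M) (cβ : ContinuousOn β I)
    (β0 : ∀ t ∈ I, 0 ≤ β t) (cn : ContinuousOn (fun t => nm (sl A t)) I) (hB : MeasurableSet B)
    (hv : volume B ≤ ENNReal.ofReal 4) (hβ : ∀ t ∈ I, t ∉ B → nm (sl A t) ≤ 1 / 2 → M ≤ 2 * β t)
    (h1 : R * Real.exp (5 * M) ≤ M')
    (h2 : ∀ t ∈ I, N t ≤ M → ∀ β ≥ 0, fq β (sl A t) ≤ nm (sl A t) → β ≤ M') (hs : s ∈ I)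
    (hN : N s ≤ Λ) : Fw M' A (I ∩ Ici s) :=
  have k := fun r (m : r ∈ I ∩ Ici s) t (m' : t ∈ I ∩ Ici s) =>
    h.low hM cβ β0 cn hB hv hβ hs hN m'.1 m.2
  have j := fun t (m : t ∈ I ∩ Ici s) => mul_le_mul_of_nonneg_right h1 (h.pos t m.1).le
  ⟨fun r m t m' l => (k r m t m' l).1.trans (j t m'), fun r m t m' l l' =>
    ((k r m t m' l).2 l').trans (j t m'), fun t m => h2 t m.1 (h.fwd hs hN m.1 m.2 le_rfl).1⟩

theorem bw_of {A : e.ZC} {ρ Λ M R M' s c : ℝ} {g N β : ℝ → ℝ}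
    (h : Dat I ρ Λ M R g (fun t => nm (sl A t)) N β) (hM : 0 ≤ M) (cβ : ContinuousOn β I)
    (hc : 0 ≤ c) (h0 : ∀ t, β t ≤ 3 * c) (h0' : ∀ t, ct p q 1 t = 0 → β t ≤ 0)
    (h1 : R * Real.exp (5 * M) ≤ M') (h2 : M + R ≤ M') (hs : s ∈ I) (hN : -Λ ≤ N s) :
    Bw p q M' c A (I ∩ Iic s) := by
  have R0 := zero_le_one.trans h.R1
  refine ⟨fun r m t m' l l' k => (h.gro hM cβ le_rfl hs hN m.1 l m'.2 fun τ j => h0' τ (k τ j)).trans
    (mul_le_mul_of_nonneg_right (le_trans ?_ h1) (h.pos r m.1).le), fun r m t m' l =>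
    (h.gro hM cβ (by positivity) hs hN m.1 l m'.2 fun τ _ => h0 τ).trans
      (mul_le_mul_of_nonneg_right ?_ (h.pos r m.1).le)⟩
  · gcongr
    nlinarith
  · refine (mul_le_mul_of_nonneg_right ((le_add_of_nonneg_right zero_le_one).trans
      (Real.add_one_le_exp R)) (Real.exp_pos _).le).trans ?_
    rw [← Real.exp_add]
    gcongr
    nlinarith

variable (hH : HdgStmt κ lam ν) (hM : MulStmt κ lam ν) (hS : SlcStmt κ lam ν)
  (hF : SlfStmt κ lam ν) (hC : C0uStmt κ lam ν)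
include hH hM hS hF hC

theorem neck2 (hK : Kn e u) (C Λ : ℝ) : ∃ M ≥ (1 : ℝ), ∃ η > 0,
    ∀ c ≥ M, ∀ K : ℝ, ∃ w₀ > 0, ∀ w ∈ Ioc 0 w₀, ∀ S ψ, (lv e c w S ψ).OK →
    ∀ p q (A : (lv e c w S ψ).ZC), NS p q C η A → Sb A (Jv p q) K →
    (∀ t ∈ Jv p q, 0 < nm (sl A t)) → ∀ s ∈ Jd p q (1 / 4),
      ((fq 0 (sl A s) ≤ Λ * nm (sl A s) → Fw M A (Jd p q (1 / 4) ∩ Ici s)) ∧
      (∀ β ≥ 0, fq β (sl A s) ≤ Λ * nm (sl A s) → Bw p q M c A (Jd p q (1 / 4) ∩ Iic s)) ∧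
      (Fw M A (Jd p q (1 / 4) ∩ Ici s) ∨ Bw p q M c A (Jd p q (1 / 4) ∩ Iic s))) ∧
      (Fw M A (Jd p q (1 / 4) ∩ Ici s) ∨ Rtw9.Up M A (Jd p q (1 / 4) ∩ Iic s)) := by
  have he := hK.1
  have om : e.om = 0 := by
    rcases hK.2.2 with ⟨_, h, -⟩ | ⟨_, h, -⟩ | h
    exacts [h.om, h.om, h.2.1]
  obtain ⟨H⟩ := hH e u he hK.2.1
  obtain ⟨a₀, σ, K₀, Sp, f0, sσ, fin, hS⟩ := hS e u hK H
  obtain ⟨K, K0, hR⟩ := Ray9.ray hM e u he H a₀ σ K₀ f0 sσ
  obtain ⟨C', hC⟩ := hC e he om C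
  obtain ⟨C4, hF⟩ := hF e he om (max C C')
  obtain ⟨ρ, ρ0, K', K1, hS⟩ := hS C'
  obtain ⟨Λ₁, hG⟩ := Gsl9.gsl e he C ρ ρ0
  obtain ⟨-, p1, -, p2, p3, p4⟩ := Es42.lvlStmt
  have K2 : 0 ≤ K₀ := (abs_nonneg _).trans (sσ.d 0)
  obtain ⟨k, hk⟩ : ∃ k, k = 2 * |C4| +
    2 * ∫ y, ‖e.cyl.fc (fz (⟨a₀, 0⟩ : e.YC)) (y, 0)‖ ^ 2 ∂e.D.F.μ + K₀ ^ 2 := ⟨_, rfl⟩
  have k0 : 0 ≤ k := by rw [hk]; positivity
  obtain ⟨B, hB⟩ : ∃ B, B = K * k := ⟨_, rfl⟩
  have B0 : 0 ≤ B := by rw [hB]; positivity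
  obtain ⟨D, D0, D1, D2, D3⟩ : ∃ D ≥ (0 : ℝ), Λ ≤ D ∧ Λ₁ ≤ D ∧ 1 ≤ D :=
    ⟨|Λ| + |Λ₁| + 1, by positivity, by linarith [le_abs_self Λ, abs_nonneg Λ₁],
      by linarith [le_abs_self Λ₁, abs_nonneg Λ], by linarith [abs_nonneg Λ₁, abs_nonneg Λ]⟩
  obtain ⟨Y, hY⟩ : ∃ Y : ℝ → ℝ, Y = fun m => 1 + (2 * D + B * (1 + m)) + B + B ^ 2 := ⟨_, rfl⟩
  have Y0 : ∀ m ≥ 0, 0 ≤ Y m := fun m hm => by rw [hY]; positivity
  obtain ⟨E, E1, E2, E3⟩ : ∃ E ≥ (1 : ℝ), B + B ^ 2 + K * K₀ * √k ≤ E ∧ (1 + B) * K ≤ E := by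
    have h1 : 0 ≤ B + B ^ 2 + K * K₀ * √k := by positivity
    have h2 : 0 ≤ (1 + B) * K := by positivity
    exact ⟨1 + (B + B ^ 2 + K * K₀ * √k) + (1 + B) * K, by linarith, by linarith, by linarith⟩
  have E0 : 0 < E := by positivity
  obtain ⟨Λ', y1, M, M1, ε, ε0, hQ⟩ := frq2 Sp fin (Y 0) (√B + E * (K' * |C| + 5))
  have M0 : 0 ≤ M := by positivity
  obtain ⟨η, η0, hS⟩ := hS (ε / E) (by positivity)
  obtain ⟨R, R1, R2⟩ : ∃ R ≥ (1 : ℝ), 2 * C' ^ 2 * e.D.F.μ.real univ ≤ R * (ρ / 2) :=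
    ⟨1 + 2 * C' ^ 2 * e.D.F.μ.real univ / (ρ / 2), le_add_of_nonneg_right (by positivity), by
      rw [add_mul, div_mul_cancel₀ _ (by positivity)]; linarith⟩
  have x0 : 0 ≤ R * Real.exp (5 * M) := by positivity
  have x1 := Y0 M M0
  refine ⟨R * Real.exp (5 * M) + 2 * M + Y M + R, by linarith, min η 1, by positivity,
    fun c hc L => ?_⟩
  have c0 : 0 ≤ c := by linarith
  obtain ⟨w₁, w1, hS⟩ := hS c c0
  obtain ⟨w₂, w2, hC⟩ := hC L c c0
  refine ⟨min w₁ w₂, lt_min w1 w2, fun w hw S ψ ok p q A ns sb pos s hs => ?_⟩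
  have sb' := hC w ⟨hw.1, hw.2.trans (min_le_right _ _)⟩ S ψ ok p q A (ns_mono ns le_rfl (min_le_right _ _)) sb
  have hF := hF w _ S ψ ok p q A (ns_mono ns (le_max_left _ _) (min_le_right _ _))
    fun x m => (sb' x m).trans (le_max_right _ _)
  have sub : Jd p q (1 / 4) ⊆ Jv p q := Jd_Jv (by norm_num)
  have sub' : Jd p q (1 / 4) ⊆ Jd p q (1 / 8) := Jd_mono (by norm_num)
  have hk' : ∀ t ∈ Jd p q (1 / 4), 0 ≤ kp H a₀ σ A t ∧ kp H a₀ σ A t ≤ k := fun t m => hk ▸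
    kp_le he H f0 sσ (A := A) Nd18.isOpen_Jv ⟨ns.adm.sa, ns.adm.sΦ, ns.adm.pa, ns.adm.pΦ⟩ (sub m) (hF t m)
  have hB' : ∀ t ∈ Jd p q (1 / 4), K * kp H a₀ σ A t ≤ B := fun t m =>
    hB ▸ mul_le_mul_of_nonneg_left (hk' t m).2 K0
  have hR := fun t (m : t ∈ Jd p q (1 / 4)) =>
    hR w _ S ψ ok A _ Nd18.isOpen_Jv ns.adm t (sub m) (pos t (sub m))
  have hS := fun t (m : t ∈ Jd p q (1 / 4)) => hS w ⟨hw.1, hw.2.trans (min_le_left _ _)⟩ S ψ ok A _
    Nd18.isOpen_Jv ns.adm t (sub m) (fun x j => sb' x ⟨trivial, j.2 ▸ sub' m⟩) (pos t (sub m))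
  have hG := fun t (m : t ∈ Jd p q (1 / 4)) => hG w _ S ψ ok A t
    (Sep15.S.admOn_mono ns.adm (prod_mono_right (Jd_sub (sub' m)))) (ns.ed t (Jd_sub (sub' m)))
  have hn := fun t (m : t ∈ Jd p q (1 / 4)) => nm_le (A := A) hw.1.le sb' (sub' m)
  have cn := (Sw88.cd_nm (c := A) Nd18.isOpen_Jv ns.adm.sΦ).continuousOn.mono sub
  have ig := fun a b => int_gn (a := a) (b := b) ok ns
  have g0 := fun t => Sep15.S.gn_nonneg (e := lv e c w S ψ) hw.1.le (sl A t)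
  have hD := fun t (m : t ∈ Jd p q (1 / 4)) y => ns.eD (y, t) ⟨trivial, sub m⟩
  have hτ := fun t (m : t ∈ Jd p q (1 / 4)) y =>
    (ns.τ [] zero_le_two (y, t) ⟨trivial, sub m⟩).trans (min_le_left _ _)
  have x1 : ∀ t, 0 ≤ fx H a₀ σ (sl A t) := fun t => Real.sqrt_nonneg _
  have r1 : ∀ t ∈ Jd p q (1 / 4), ∀ β L m, L ≤ D → 0 ≤ m → fq β (sl A t) ≤ L * nm (sl A t) →
      |fN H a₀ σ (sl A t)| ≤ m + |fN H a₀ σ (sl A t) - β| → |fN H a₀ σ (sl A t) - β| ≤ Y m :=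
    fun t j β L m h1 h2 h3 h4 => by
      rw [hY]
      refine quad' (by positivity) B0 h2 h4 (((hR t j).1 β).trans (add_le_add ?_ ?_))
      · rw [div_le_iff₀ (pos t (sub j))]
        nlinarith [mul_le_mul_of_nonneg_right h1 (pos t (sub j)).le]
      · exact mul_le_mul_of_nonneg_right (hB' t j) (by have := x1 t; positivity)
  have cβ : ContinuousOn (fun t => ct p q 1 t * (c * prf (nm (sl A t)))) (Jd p q (1 / 4)) :=
    Nd18.contDiff_ct.continuous.continuousOn.mul ((p1.continuous.comp_continuousOn cn).const_mul c)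
  have dat : Dat (Jd p q (1 / 4)) ρ Λ' M R (fun t => w * nm (sl A t)) (fun t => nm (sl A t))
      (fun t => fN H a₀ σ (sl A t)) fun t => ct p q 1 t * (c * prf (nm (sl A t))) := by
    refine ⟨oc_Jv, cn.const_mul w, R1, fun t m => pos t (sub m), fun t m h => ?_,
      fun a ha b hb m h => ?_⟩
    · refine (hG t m h).imp ?_ ?_ <;> refine fun ⟨s, j, j1, j2⟩ => ⟨s, j, fun m' =>
        ⟨sub_zero (fN H a₀ σ (sl A s)) ▸ (r1 s m' 0 _ 0 D2 le_rfl j1 (by simp)).trans y1, fun r m'' =>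
          le_of_mul_le_mul_left (((hn r m'').trans R2).trans ?_) hw.1⟩⟩ <;> nlinarith
    have s1 := oc_Jv.out ha hb
    have mB : MeasurableSet (Bd p q ∪ Icc m (m + 1 / 8)) := ms_Bd.union measurableSet_Icc
    obtain ⟨i1, i2⟩ := int_ind (v := 5) mB (by norm_num) ((measure_union_le _ _).trans
      ((add_le_add vol_Bd Real.volume_Icc.le).trans ((ENNReal.ofReal_add (by norm_num)
        (by linarith)).symm.trans_le (ENNReal.ofReal_le_ofReal (by linarith))))) (Icc a b)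
    obtain ⟨i3, i4⟩ := ig a b (s1.trans sub)
    obtain ⟨r, hr⟩ : ∃ r : ℝ → ℝ, r = fun t => E * (K' * (Jd p q 2).indicator
      (fun t => gn (sl A t)) t + (Bd p q ∪ Icc m (m + 1 / 8)).indicator (fun _ => 1) t) := ⟨_, rfl⟩
    have n1 : ∀ t, 0 ≤ K' * (Jd p q 2).indicator (fun t => gn (sl A t)) t := fun t =>
      mul_nonneg K1 (indicator_nonneg (fun t _ => g0 t) t)
    have n2 : ∀ t, 0 ≤ (Bd p q ∪ Icc m (m + 1 / 8)).indicator (fun _ => (1 : ℝ)) t := fun t =>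
      indicator_nonneg (fun _ _ => zero_le_one) t
    have r0 : ∀ t, 0 ≤ r t := fun t => hr ▸ mul_nonneg E0.le (add_nonneg (n1 t) (n2 t))
    have key : ∀ t ∈ Icc a b, E ≤ r t ∨ E * kp H a₀ σ A t ≤ ε + r t ∧
        deriv σ (H.s ((sl A t).a - a₀)) = 0 ∧
        ∀ δ ≥ 0, (∀ l ∈ Sp, δ ≤ |fN H a₀ σ (sl A t) - l|) → δ ≤ fx H a₀ σ (sl A t) := fun t j => by
      by_cases k : t ∈ Bd p q ∪ Icc m (m + 1 / 8)
      · refine .inl (hr ▸ le_mul_of_one_le_right E0.le ?_)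
        rw [indicator_of_mem k]
        exact le_add_of_nonneg_left (n1 t)
      have j2 := of_Bd (sub (s1 j)) fun i => k (.inl i)
      have j3 : r t = E * (K' * gn (sl A t)) := by
        simp only [hr, indicator_of_mem j2, indicator_of_notMem k, add_zero]
      refine (hS t (s1 j) (le_of_not_ge fun i => k (.inr (h t j i))) fun y => ?_).imp
        (fun i => j3 ▸ le_mul_of_one_le_right E0.le i) fun i => ⟨?_, i.2.1, i.2.2.2⟩
      · have := hτ t (s1 j) y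
        rwa [List.map_nil, Pre.Dw, rm, ct_Jd j2, one_mul] at this
      · refine (mul_le_mul_of_nonneg_left i.1 E0.le).trans_eq ?_
        rw [j3, mul_add, mul_div_cancel₀ _ E0.ne']
    refine hQ a b _ _ (fun t => fx H a₀ σ (sl A t)) _ r ⟨fun t j => ?_, fun t _ => x1 t, fun t _ => r0 t,
      fun t j => (key t j).imp E1.trans fun i => i.2.2⟩ (hr ▸ ((i3.const_mul K').add i1).const_mul E)
      ?_ (cβ.mono s1)
    · obtain ⟨l', N', d1, d2, d3, d4⟩ := (hR t (s1 j)).2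
        (ct p q 1 t * (c * prf (nm (sl A t)))) (hD t (s1 j))
      have b1 := hB' t (s1 j)
      obtain ⟨b2, b3⟩ := hk' t (s1 j)
      have b4 := mul_nonneg K0 b2
      have b5 := abs_nonneg (fN H a₀ σ (sl A t))
      refine ⟨l', N', d1, d2, d3.trans ?_, d4.trans ?_⟩
      · rcases key t j with i | ⟨i, i', -⟩
        · have : K * |deriv σ (H.s ((sl A t).a - a₀))| * √(kp H a₀ σ A t) ≤ K * K₀ * √k := by
            gcongr; exact sσ.d _
          have b6 : 0 ≤ K * K₀ * √k := by positivity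
          nlinarith [pow_le_pow_left₀ b4 b1 2, mul_nonneg b5 (sub_nonneg.2 i), mul_nonneg b5 ε0.le,
            mul_nonneg b5 (sub_nonneg.2 b1), mul_nonneg b5 (sub_nonneg.2 E2), mul_nonneg b5 b6,
            mul_nonneg b5 (sq_nonneg B)]
        · rw [i', abs_zero, mul_zero, zero_mul, add_zero]
          have b6 := (mul_le_mul_of_nonneg_right E3 b2).trans i
          nlinarith [mul_le_mul_of_nonneg_left b1 b4, mul_nonneg b5 (sub_nonneg.2 b6),
            mul_nonneg b5 (mul_nonneg B0 b4)]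
      · rw [Real.sqrt_mul b4]
        gcongr
        exact (Real.sqrt_le_sqrt b1).trans (le_add_of_nonneg_right (by positivity))
    · rw [hr, integral_const_mul, integral_add (i3.const_mul K') i1, integral_const_mul]
      refine le_add_of_nonneg_of_le (Real.sqrt_nonneg _) ?_
      gcongr
  have fw := fun s => fw_of (s := s) (M' := R * Real.exp (5 * M) + 2 * M + Y M + R) dat M0 cβ
    (fun t _ => mul_nonneg Nd18.ct_mem.1 (mul_nonneg c0 (p2 _).1)) cn ms_Bd vol_Bd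
    (fun t m k j => by
      rw [ct_Jd (of_Bd (sub m) k), one_mul]
      nlinarith [mul_le_mul_of_nonneg_left (p4.trans (p3 j)) c0])
    (by linarith) (fun t m k β h1 h2 => by
      have := r1 t m β 1 M D3 M0 (by rwa [one_mul]) (by
        rcases abs_cases (fN H a₀ σ (sl A t)) with j | j <;>
          linarith [neg_abs_le (fN H a₀ σ (sl A t) - β), abs_nonneg (fN H a₀ σ (sl A t) - β)])
      linarith [neg_le_of_abs_le this])
  have bw := bw_of (p := p) (q := q) (M' := R * Real.exp (5 * M) + 2 * M + Y M + R) dat M0 cβ c0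
    (fun t => (mul_le_of_le_one_left (mul_nonneg c0 (p2 _).1) Nd18.ct_mem.2).trans
      (by nlinarith [(p2 (nm (sl A t))).2])) (fun t k => by rw [k, zero_mul])
    (by linarith) (by linarith) hs
  have y0 := (Y0 0 le_rfl).trans y1
  refine ⟨⟨fun h => fw s hs (le_of_abs_le (sub_zero (fN H a₀ σ (sl A s)) ▸
    (r1 s hs 0 _ 0 D1 le_rfl h (by simp)).trans y1)), fun β h1 h2 => bw ?_, (le_total _ 0).imp
      (fun h => fw s hs (h.trans y0)) fun h => bw ((neg_nonpos.2 y0).trans h)⟩, ?_⟩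
  · by_contra! k
    have j : |fN H a₀ σ (sl A s)| ≤ 0 + |fN H a₀ σ (sl A s) - β| := by
      rw [abs_of_nonpos (by linarith), abs_of_nonpos (by linarith)]; linarith
    linarith [r1 s hs β _ 0 D1 le_rfl h2 j, neg_abs_le (fN H a₀ σ (sl A s))]
  by_cases j : ∀ r ∈ Jd p q (1 / 4), r ≤ s → Λ' < fN H a₀ σ (sl A r)
  · refine .inr fun r m t m' l => (dat.up cn (fun t _ i => ?_) hs j m.1 l m'.2).trans
      (mul_le_mul_of_nonneg_right ?_ (by positivity))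
    · rw [show c * prf _ = 0 from ok.b1 _ i, mul_zero]
    · nlinarith [Real.exp_le_exp.2 (show M ≤ 5 * M by linarith), Real.exp_pos M]
  · push Not at j
    obtain ⟨r, m, l, j⟩ := j
    have f := fw r m j
    have i : Jd p q (1 / 4) ∩ Ici s ⊆ Jd p q (1 / 4) ∩ Ici r :=
      inter_subset_inter_right _ (Ici_subset_Ici.2 l)
    exact .inl ⟨fun a b t d => f.low a (i b) t (i d), fun a b t d => f.sh a (i b) t (i d),
      fun a b => f.fr a (i b)⟩

/-- **EN-NECK** -/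
theorem neck : NeckStmt κ lam ν := fun _ _ hK C Λ =>
  let ⟨M, M1, η, η0, h⟩ := neck2 hH hM hS hF hC hK C Λ
  ⟨M, M1, η, η0, fun c a K => (h c a K).imp fun _ k => ⟨k.1, fun w b S ψ o p q A a1 a2 a3 s a4 =>
    (k.2 w b S ψ o p q A a1 a2 a3 s a4).1⟩⟩

/-- **NECK-UP** -/
theorem up : Rtw9.UpStmt κ lam ν := fun _ _ hK C =>
  let ⟨M, M1, η, η0, h⟩ := neck2 hH hM hS hF hC hK C 0
  ⟨M, M1, η, η0, fun c a K => (h c a K).imp fun _ k => ⟨k.1, fun w b S ψ o p q A a1 a2 a3 s a4 =>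
    (k.2 w b S ψ o p q A a1 a2 a3 s a4).2⟩⟩

end Crest.Agent.X212.Nck9
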