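import Mathlib

/-!
# Row 212, EN-NECK (helper9): the scalar part
-/

set_option autoImplicit false
noncomputable section
open MeasureTheory Set Real

namespace Crest.Agent.X212.Nck9

theorem quad {x y D B : ℝ} (hD : 0 ≤ D) (hB : 0 ≤ B)
    (h : y ^ 2 + x ^ 2 ≤ D + B * (x + y)) :
    y ≤ 1 + D + B + B ^ 2 := by
  by_contra! k
  nlinarith [sq_nonneg (x - B), sq_nonneg B, mul_nonneg hD hB, hB]

theorem quad' {N β x D B m : ℝ} (hD : 0 ≤ D) (hB : 0 ≤ B) (hm : 0 ≤ m) (k : |N| ≤ m + |N - β|)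
    (h : (N - β) ^ 2 + x ^ 2 ≤ D + B * (1 + x + |N|)) :
    |N - β| ≤ 1 + (D + B * (1 + m)) + B + B ^ 2 :=
  quad (x := x) (by positivity) hB (by rw [sq_abs]; nlinarith [mul_le_mul_of_nonneg_left k hB])

theorem int_ind {B : Set ℝ} (hB : MeasurableSet B) {v : ℝ} (hv : 0 ≤ v)
    (h : volume B ≤ ENNReal.ofReal v) (S : Set ℝ) :
    IntegrableOn (B.indicator fun _ => (1 : ℝ)) S ∧ ∫ t in S, B.indicator (fun _ => (1 : ℝ)) t ≤ v := by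
  have i : Integrable (B.indicator fun _ => (1 : ℝ)) :=
    (integrableOn_const (h.trans_lt ENNReal.ofReal_lt_top).ne).integrable_indicator hB
  refine ⟨i.integrableOn, (setIntegral_le_integral i (.of_forall fun t =>
    indicator_nonneg (fun _ _ => zero_le_one) t)).trans ?_⟩
  rw [integral_indicator hB, setIntegral_const, smul_eq_mul, mul_one]
  exact ENNReal.toReal_le_of_le_ofReal hv h

theorem int_ge {B : Set ℝ} (hB : MeasurableSet B) {v M s t : ℝ} (hv : 0 ≤ v) (hM : 0 ≤ M)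
    (h : volume B ≤ ENNReal.ofReal v) {f : ℝ → ℝ} (hst : s ≤ t) (hf : ContinuousOn f (Icc s t))
    (h1 : ∀ τ ∈ Ioc s t, -M ≤ f τ ∧ (τ ∉ B → 0 ≤ f τ)) : -(M * v) ≤ ∫ τ in s..t, f τ := by
  obtain ⟨i1, i2⟩ := int_ind hB hv h (Ioc s t)
  rw [intervalIntegral.integral_of_le hst]
  refine le_trans ?_ (setIntegral_mono_on (i1.const_mul (-M))
    (hf.integrableOn_Icc.mono_set Ioc_subset_Icc_self) measurableSet_Ioc fun τ m => ?_)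
  · rw [integral_const_mul]; nlinarith
  · by_cases k : τ ∈ B
    · simpa [k] using (h1 τ m).1
    · simpa [k] using (h1 τ m).2 k

/-- the scalar data of a neck -/
structure Dat (I : Set ℝ) (ρ Λ M R : ℝ) (g n N β : ℝ → ℝ) : Prop where
  oc : I.OrdConnected
  cg : ContinuousOn g I
  R1 : 1 ≤ R
  pos : ∀ t ∈ I, 0 < n t
  gs : ∀ t ∈ I, ρ ≤ g t →
    (∃ s ∈ Ioo (t - 1 / 8) t, s ∈ I → |N s| ≤ Λ ∧ ∀ r ∈ I, n r ≤ R * n s) ∧
      ∃ s ∈ Ioo t (t + 1 / 8), s ∈ I → |N s| ≤ Λ ∧ ∀ r ∈ I, n r ≤ R * n s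
  co : ∀ a ∈ I, ∀ b ∈ I, ∀ m, (∀ τ ∈ Icc a b, ρ ≤ g τ → τ ∈ Icc m (m + 1 / 8)) →
    (N a ≤ Λ → ∀ s t, a ≤ s → s ≤ t → t ≤ b →
      N t ≤ M ∧ (∫ τ in s..t, (2 * β τ - M)) - M ≤ log (n t) - log (n s)) ∧
    (-Λ ≤ N b → ∀ s t, a ≤ s → s ≤ t → t ≤ b →
      -M ≤ N s ∧ log (n t) - log (n s) ≤ (∫ τ in s..t, (2 * β τ + M)) + M) ∧
    ((∀ τ ∈ Icc a b, Λ ≤ N τ) → ∀ s t, a ≤ s → s ≤ t → t ≤ b →
      log (n t) - log (n s) ≤ (∫ τ in s..t, 2 * β τ) + M)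

theorem cpt {g : ℝ → ℝ} {a b : ℝ} (h : ContinuousOn g (Icc a b)) (ρ : ℝ) :
    IsCompact (Icc a b ∩ g ⁻¹' Ici ρ) :=
  isCompact_Icc.of_isClosed_subset (h.preimage_isClosed_of_isClosed isClosed_Icc isClosed_Ici)
    inter_subset_left

variable {I : Set ℝ} {ρ Λ M R : ℝ} {g n N β : ℝ → ℝ} (h : Dat I ρ Λ M R g n N β) {s₀ s t : ℝ}
include h

theorem Dat.fwd (h0 : s₀ ∈ I) (hN : N s₀ ≤ Λ) (ht : t ∈ I) (h1 : s₀ ≤ s) (h2 : s ≤ t) :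
    N t ≤ M ∧ ∃ a ∈ Icc s t, n s ≤ R * n a ∧
      ∀ r ∈ Icc a t, (∫ τ in r..t, (2 * β τ - M)) - M ≤ log (n t) - log (n r) := by
  have sub := h.oc.out h0 ht
  have hs := sub ⟨h1, h2⟩
  have k0 := le_mul_of_one_le_left (h.pos s hs).le h.R1
  by_cases k : ∀ τ ∈ Icc s₀ t, ρ ≤ g τ → τ ∈ Icc s₀ (s₀ + 1 / 8)
  · have j := (h.co _ h0 _ ht _ k).1 hN
    exact ⟨(j s t h1 h2 le_rfl).1, s, ⟨le_rfl, h2⟩, k0, fun r m => (j r t (h1.trans m.1) m.2 le_rfl).2⟩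
  push Not at k
  obtain ⟨τ, m1, m2, m3⟩ := k
  obtain ⟨t₁, m4, m5⟩ := (cpt (h.cg.mono sub) ρ).exists_isGreatest ⟨τ, m1, m2⟩
  have m6 : s₀ + 1 / 8 < t₁ := (not_le.1 fun k => m3 ⟨m1.1, k⟩).trans_le (m5 ⟨m1, m2⟩)
  obtain ⟨a, m7, m8⟩ := (h.gs t₁ (sub m4.1) m4.2).1
  have m9 : a ∈ Icc s₀ t := ⟨by linarith [m7.1], m7.2.le.trans m4.1.2⟩
  obtain ⟨p1, p2⟩ := m8 (sub m9)
  have j := (h.co _ (sub m9) _ ht a fun τ m k =>
    ⟨m.1, by linarith [m5 ⟨⟨m9.1.trans m.1, m.2⟩, k⟩, m7.1]⟩).1 (le_of_abs_le p1)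
  refine ⟨(j t t m9.2 le_rfl le_rfl).1, max a s, ⟨le_max_right _ _, max_le m9.2 h2⟩, ?_,
    fun r m => (j r t ((le_max_left _ _).trans m.1) m.2 le_rfl).2⟩
  rcases max_choice a s with e | e <;> rw [e]
  exacts [p2 s hs, k0]

theorem Dat.bwd (h0 : s₀ ∈ I) (hN : -Λ ≤ N s₀) (hs : s ∈ I) (h1 : s ≤ t) (h2 : t ≤ s₀) :
    ∃ b ∈ Icc s t, n t ≤ R * n b ∧ log (n b) - log (n s) ≤ (∫ τ in s..b, (2 * β τ + M)) + M := by
  have sub := h.oc.out hs h0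
  have ht := sub ⟨h1, h2⟩
  have k0 := le_mul_of_one_le_left (h.pos t ht).le h.R1
  by_cases k : ∀ τ ∈ Icc s s₀, ρ ≤ g τ → τ ∈ Icc (s₀ - 1 / 8) (s₀ - 1 / 8 + 1 / 8)
  · exact ⟨t, ⟨h1, le_rfl⟩, k0, ((h.co _ hs _ h0 _ k).2.1 hN s t le_rfl h1 h2).2⟩
  push Not at k
  obtain ⟨τ, m1, m2, m3⟩ := k
  obtain ⟨t₁, m4, m5⟩ := (cpt (h.cg.mono sub) ρ).exists_isLeast ⟨τ, m1, m2⟩
  have m6 : t₁ < s₀ - 1 / 8 :=
    (m5 ⟨m1, m2⟩).trans_lt (not_le.1 fun k => m3 ⟨k, by linarith [m1.2]⟩)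
  obtain ⟨a, m7, m8⟩ := (h.gs t₁ (sub m4.1) m4.2).2
  have m9 : a ∈ Icc s s₀ := ⟨m4.1.1.trans m7.1.le, by linarith [m7.2]⟩
  obtain ⟨p1, p2⟩ := m8 (sub m9)
  have j := (h.co _ hs _ (sub m9) (a - 1 / 8) fun τ m k =>
    ⟨by linarith [m5 ⟨⟨m.1, m.2.trans m9.2⟩, k⟩, m7.2], by linarith [m.2]⟩).2.1 (neg_le_of_abs_le p1)
  refine ⟨min a t, ⟨le_min m9.1 h1, min_le_right _ _⟩, ?_,
    (j s _ le_rfl (le_min m9.1 h1) (min_le_left _ _)).2⟩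
  rcases min_choice a t with e | e <;> rw [e]
  exacts [p2 t ht, k0]

theorem Dat.le (hs : s ∈ I) (ht : t ∈ I) {x : ℝ} (k : log (n s) - log (n t) ≤ x) :
    n s ≤ exp x * n t := by
  rwa [← log_div (h.pos s hs).ne' (h.pos t ht).ne', log_le_iff_le_exp
    (div_pos (h.pos s hs) (h.pos t ht)), div_le_iff₀ (h.pos t ht)] at k

/-- no growth at high frequency -/
theorem Dat.up (cn : ContinuousOn n I) (hβ : ∀ t ∈ I, 1 ≤ n t → β t = 0) (h0 : s₀ ∈ I)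
    (hN : ∀ r ∈ I, r ≤ s₀ → Λ < N r) (hs : s ∈ I) (h1 : s ≤ t) (h2 : t ≤ s₀) :
    n t ≤ exp M * max (n s) 1 := by
  have sub := h.oc.out hs h0
  have sub' := (Icc_subset_Icc_right h2).trans sub
  have j := (h.co _ hs _ h0 (s₀ - 1 / 8) fun τ m k => ⟨le_of_not_gt fun i => by
    obtain ⟨a, m1, m2⟩ := (h.gs τ (sub m) k).2
    have m3 : a ∈ Icc s s₀ := ⟨m.1.trans m1.1.le, by linarith [m1.2]⟩
    exact (hN a (sub m3) m3.2).not_ge (le_of_abs_le (m2 (sub m3)).1), by linarith [m.2]⟩).2.2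
      fun τ m => (hN τ (sub m) m.2).le
  obtain ⟨r, m, k1, k2⟩ : ∃ r ∈ Icc s t, n r ≤ max (n s) 1 ∧ ∀ τ ∈ Ioc r t, 1 ≤ n τ := by
    by_cases k : ∃ τ, τ ∈ Icc s t ∩ (-n) ⁻¹' Ici (-1)
    · obtain ⟨r, p1, p2⟩ := (cpt (cn.neg.mono sub') (-1)).exists_isGreatest k
      exact ⟨r, p1.1, le_max_of_le_right (neg_le_neg_iff.1 p1.2), fun τ q => le_of_not_ge fun i =>
        q.1.not_ge (p2 ⟨⟨p1.1.1.trans q.1.le, q.2⟩, neg_le_neg i⟩)⟩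
    · exact ⟨s, ⟨le_rfl, h1⟩, le_max_left _ _, fun τ q => le_of_not_ge fun i =>
        k ⟨τ, Ioc_subset_Icc_self q, neg_le_neg i⟩⟩
  have := j r t m.1 m.2 h2
  rw [intervalIntegral.integral_of_le m.2, setIntegral_eq_zero_of_forall_eq_zero fun τ q => by
    rw [hβ τ (sub' ⟨m.1.trans q.1.le, q.2⟩) (k2 τ q), mul_zero], zero_add] at this
  exact (h.le (sub' ⟨h1, le_rfl⟩) (sub' m) this).trans (mul_le_mul_of_nonneg_left k1 (exp_pos _).le)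

variable (hM : 0 ≤ M) (cβ : ContinuousOn β I) (β0 : ∀ t ∈ I, 0 ≤ β t)
include hM cβ β0

/-- lower bounds forwards -/
theorem Dat.low (cn : ContinuousOn n I) {B : Set ℝ} (hB : MeasurableSet B)
    (hv : volume B ≤ ENNReal.ofReal 4) (hβ : ∀ t ∈ I, t ∉ B → n t ≤ 1 / 2 → M ≤ 2 * β t)
    (h0 : s₀ ∈ I) (hN : N s₀ ≤ Λ) (ht : t ∈ I) (h1 : s₀ ≤ s) (h2 : s ≤ t) :
    min (n s) (1 / 2) ≤ R * exp (5 * M) * n t ∧ (t ≤ s + 1 → n s ≤ R * exp (5 * M) * n t) := by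
  obtain ⟨-, a, m, k1, k2⟩ := h.fwd h0 hN ht h1 h2
  have R0 := zero_le_one.trans h.R1
  have sub := (Icc_subset_Icc_left (h1.trans m.1)).trans (h.oc.out h0 ht)
  have k : ∀ r ∈ Icc a t, ∀ B, MeasurableSet B → volume B ≤ ENNReal.ofReal 4 →
      (∀ τ ∈ Ioc r t, τ ∉ B → M ≤ 2 * β τ) → n r ≤ exp (5 * M) * n t := fun r p B hB hv hβ => by
    have s2 := (Icc_subset_Icc_left p.1).trans sub
    have := int_ge (f := fun τ => 2 * β τ - M) hB (by norm_num) hM hv p.2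
      (((cβ.mono s2).const_mul 2).sub continuousOn_const) fun τ q =>
      ⟨by linarith [β0 τ (s2 (Ioc_subset_Icc_self q))], fun j => sub_nonneg.2 (hβ τ q j)⟩
    exact h.le (sub p) ht (by linarith [k2 r p])
  rw [mul_assoc]
  refine ⟨?_, fun j => k1.trans (mul_le_mul_of_nonneg_left (k a ⟨le_rfl, m.2⟩ (Icc s (s + 1))
    measurableSet_Icc (by rw [volume_Icc]; exact ENNReal.ofReal_le_ofReal (by linarith))
    fun τ q p => (p ⟨m.1.trans q.1.le, q.2.trans j⟩).elim) R0)⟩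
  by_cases j : ∃ τ, τ ∈ Icc a t ∩ n ⁻¹' Ici (1 / 2)
  · obtain ⟨r, p1, p2⟩ := (cpt (cn.mono sub) (1 / 2)).exists_isGreatest j
    refine (min_le_right _ _).trans ((p1.2.trans (k r p1.1 B hB hv fun τ q p => ?_)).trans
      (le_mul_of_one_le_left (mul_pos (exp_pos _) (h.pos t ht)).le h.R1))
    have q' : τ ∈ Icc a t := ⟨p1.1.1.trans q.1.le, q.2⟩
    exact hβ τ (sub q') p (le_of_not_ge fun i => q.1.not_ge (p2 ⟨q', i⟩))
  · refine (min_le_left _ _).trans (k1.trans (mul_le_mul_of_nonneg_left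
      (k a ⟨le_rfl, m.2⟩ B hB hv fun τ q p => ?_) R0))
    have q' := Ioc_subset_Icc_self q
    exact hβ τ (sub q') p (le_of_not_ge fun i => j ⟨τ, q', i⟩)

omit β0 in
/-- upper bounds backwards -/
theorem Dat.gro {c : ℝ} (hc : 0 ≤ c) (h0 : s₀ ∈ I) (hN : -Λ ≤ N s₀) (hs : s ∈ I) (h1 : s ≤ t)
    (h2 : t ≤ s₀) (hβ : ∀ r ∈ Icc s t, β r ≤ c) :
    n t ≤ R * exp ((2 * c + M) * (t - s) + M) * n s := by
  obtain ⟨b, m, k1, k2⟩ := h.bwd h0 hN hs h1 h2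
  have sub := (Icc_subset_Icc_right (m.2.trans h2)).trans (h.oc.out hs h0)
  have k3 := intervalIntegral.integral_mono_on m.1 ((((cβ.mono sub).const_mul 2).add
    (continuousOn_const (c := M))).intervalIntegrable_of_Icc (μ := volume) m.1)
    (intervalIntegrable_const (c := 2 * c + M)) fun r p => by
      have := hβ r ⟨p.1, p.2.trans m.2⟩
      simp only [Pi.add_apply]; linarith
  rw [intervalIntegral.integral_const, smul_eq_mul] at k3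
  rw [mul_assoc]
  refine k1.trans (mul_le_mul_of_nonneg_left (h.le (sub ⟨m.1, le_rfl⟩) hs (k2.trans
    (add_le_add (k3.trans ?_) le_rfl))) (zero_le_one.trans h.R1))
  nlinarith [m.2]

end Crest.Agent.X212.Nck9
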